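import Vale.Agent.P245.Bdl.B2

open MeasureTheory
open scoped ContDiff

namespace Vale.Agent.Results.P245.LogSobolevLog

open Vale.Agent.P245

/-- There is an absolute constant `C` such that the log-Sobolev constant of every linearly
`a`-subgaussian log-concave probability measure on `ℝ^n` is at most `C (1 + log n) a^2`. -/
theorem result :
    ∃ C : ℝ, ∀ (n : ℕ), 1 ≤ n → ∀ (μ : Measure (EuclideanSpace ℝ (Fin n)))
      [IsProbabilityMeasure μ], HasLogConcaveDensity μ → ∀ a : ℝ, 0 < a →
      LinearlySubgaussian μ a → ∀ f : EuclideanSpace ℝ (Fin n) → ℝ, ContDiff ℝ ∞ f →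
      HasCompactSupport f →
      Entropy μ (fun x => f x ^ 2)
        ≤ C * (1 + Real.log n) * a ^ 2 * ∫ x, ‖gradient f x‖ ^ 2 ∂μ :=
  E1.logSobolev_log E1.thG_all

end Vale.Agent.Results.P245.LogSobolevLog
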